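import Vale.Agent.P215.AI.Final

/-!
# P215: double points which move a probability measure only a little
-/

namespace Vale.Agent.Results.P215.AlmostInvariant

open Vale.Agent.P215.H788 Vale.Agent.P215.Am Vale.Agent.P215.TV Vale.Agent.P215.AI
open scoped Pointwise

/-- **A quantitative form of the theorem that amenable groups are good.**  Let `G` be a height 1.5
capped grope as in the definition of good groups, let `φ` be a homomorphism from the fundamental
group of its thickening to an arbitrary group `Γ`, and let `Γ` act on a set `X` with amenable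
stabilizers.  `Null G φ` says that there is a framed immersed disc as in the definition of good
groups: the homomorphism `φ` maps all its double point loops to the identity.  For a probability
measure `μ` on `X`, `move μ g` is the norm in `ℓ¹` of the difference of `μ` and its translate by `g`.

(1) `G` is null for `φ` if `move μ (g 0) + move μ (g 1) + move μ (g 2) < 2` for any three different
nontrivial labels `g l` of double points on the three caps of a branch: `g l` is the value of `φ` on a
loop which leaves the base point to the side on that cap of a double point.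
(2) The Cheeger constant: `G` is null for `φ` if for all values `g i` of `φ` on double point loops
and all weights `p i` with the sum `1` there is a probability measure `μ` on `X` for which the average
displacement `∑ i, p i * move μ (g i)` is less than `2 / 3`.  (For instance, one measure `μ` with
`move μ g < 2 / 3` for all values `g`.)
(3) The spectral radius: `G` is null for `φ` if for all values `g i` and weights `p i` there is a unit
vector `ξ` of `ℓ²(X)` for which the average of the inner products of `ξ` and its translates by `g i`
is greater than `2 * √2 / 3`, the spectral radius of the simple random walk on the 3-regular tree.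
(4) The growth rate: `G` is null for `φ` if an orbit has growth rate less than two: for a subset `S`
of `Γ` which contains `1`, the values and their inverses, a point `x` and a number `c < 2`, the set of
the points `s • x`, for `s` in `S ^ n`, has at most `c ^ n` elements for infinitely many `n`. -/
theorem result (G : CappedGrope) (Γ X : Type) [Group Γ] [MulAction Γ X]
    (hst : ∀ x : X, IsAmenable (MulAction.stabilizer Γ x))
    (φ : FundamentalGroup G.Thickening G.basePt →* Γ) :
    (∀ μ : X → ℝ, (∀ x, 0 ≤ μ x) → HasSum μ 1 →
      (∀ (j i : ℕ) (g : Fin 3 → Γ), g 0 ∈ labelsOn G φ (0, j, true) →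
        g 1 ∈ labelsOn G φ (j + 1, i, false) → g 2 ∈ labelsOn G φ (j + 1, i, true) →
        (∀ l, g l ≠ 1) → Function.Injective g → ∑ l, move μ (g l) < 2) → Null G φ) ∧
    ((∀ (n : ℕ) (g : Fin n → Γ) (p : Fin n → ℝ), (∀ i, g i ∈ values G φ) → (∀ i, 0 ≤ p i) →
        ∑ i, p i = 1 → ∃ μ : X → ℝ, (∀ x, 0 ≤ μ x) ∧ HasSum μ 1 ∧
          ∑ i, p i * move μ (g i) < 2 / 3) → Null G φ) ∧
    ((∀ (n : ℕ) (g : Fin n → Γ) (p : Fin n → ℝ), (∀ i, g i ∈ values G φ) → (∀ i, 0 ≤ p i) →
        ∑ i, p i = 1 → ∃ ξ : X → ℝ, HasSum (fun x => ξ x ^ 2) 1 ∧
          2 * √2 / 3 < ∑ i, p i * ∑' x, ξ x * ξ (g i • x)) → Null G φ) ∧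
    ∀ S : Set Γ, 1 ∈ S → (∀ g ∈ values G φ, g ∈ S ∧ g⁻¹ ∈ S) →
      ∀ (x : X) (c : ℝ), 0 ≤ c → c < 2 →
      (∀ m : ℕ, ∃ n ≥ m, ∃ B : Finset X, (∀ s ∈ S ^ n, s • x ∈ B) ∧ (B.card : ℝ) ≤ c ^ n) →
      Null G φ :=
  ⟨fun μ h0 h1 h => null_of_action G Γ X hst φ μ h0 h1 h,
    fun h => null_of_cheeger G Γ X hst φ h,
    fun h => null_of_spectral G Γ X hst φ h,
    fun S h1 hS x c hc0 hc hn => null_of_orbit G Γ X hst φ S h1 hS x c hc0 hc hn⟩

end Vale.Agent.Results.P215.AlmostInvariant
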