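import Vale.Agent.P215.H788.Final
import Vale.Agent.P215.Am.AmenOpen
import Vale.Agent.P215.Am.GoodAmenable

/-!
# P215: every amenable group is good
-/

namespace Vale.Agent.Results.P215.AmenableGood

open Vale.Agent.P215.H788 Vale.Agent.P215.Am

/-- (1) **Every amenable group is good.**
(2) The groups of the class `SG`, which is generated by the groups of subexponential growth under
subgroups, quotients, extensions and directed unions, are amenable.
(3) There are continuum many pairwise non-isomorphic amenable groups with two generators outside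
the class `SG`. -/
theorem result :
    (∀ (Γ : Type) [Group Γ], IsAmenable Γ → Good Γ) ∧
    (∀ (Γ : Type) [Group Γ], SG Γ → IsAmenable Γ) ∧
    ∃ (Γ : (ℕ → Bool) → Type) (_ : ∀ s, Group (Γ s)),
      (∀ s, ∃ g : Fin 2 → Γ s, Subgroup.closure (Set.range g) = ⊤) ∧
      (∀ s, IsAmenable (Γ s)) ∧ (∀ s, ¬ SG (Γ s)) ∧
      ∀ s s', s ≠ s' → IsEmpty (Γ s ≃* Γ s') :=
  ⟨fun Γ _ h => good_of_amenable Γ h.amenable, fun _ _ h => isAmenable_of_SG h,
    exists_amenable_family⟩

end Vale.Agent.Results.P215.AmenableGood
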