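import Vale.Agent.P215.LP.Main

/-!
# P215: capped gropes with local pointers, and labels of growth rate less than two
-/

namespace Vale.Agent.Results.P215.LocalPointers

open Vale.Agent.P215.H788 Vale.Agent.P215.Am Vale.Agent.P215.TV Vale.Agent.P215.LP
open scoped Pointwise

/-- **Capped gropes with local pointers are null, over every group.**  The height 1.5 capped gropes
`G` are those of the definition of good groups, and `Null G φ` says that there is a framed immersed
disc as there: the homomorphism `φ` maps all its double point loops to the identity.

(1) The criterion: for every capped grope `G` there are paths `p k`, `q k` such that `G` is null for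
each homomorphism `φ` to a group `Γ` for which the values `g k` of `φ` on the double point loops
`loop G k (p k) (q k)` have pointers: on each cubic graph whose edges are double points of `G`, and
whose vertices are branches of `G`, the vertices can choose one of their edges, by a local rule, such
that two neighbours never choose the same edge, unless they are close to a closed walk with the
trivial label.
(2) Growth rate less than two, modulo an amenable normal subgroup: `G` is null for `φ` if the images
of the values of `φ` on the double point loops and of their inverses in the quotient `Q` of `Γ` by an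
amenable normal subgroup lie in a set `S ∋ 1` with `|S ^ n| < 2 ^ n` for some `n`.
(3) `G` is null for `φ` if the values and their inverses lie in a subset `S` of `Γ` with
`|S ^ (n + 1)| < 3 * 2 ^ n` for some `n`.
(4) `G` is null for `φ` if there are three elements `w 0`, `w 1`, `w 2` of `Γ` such that each value
is of the form `(w i)⁻¹ * w j`.
(5) `G` is null for `φ` if the values lie in `{1, a 0, a 1, a 2}` for three involutions (or trivial
elements) `a i` of `Γ` which do not generate the free product of three groups of order two: a nonempty
word `w` in the letters `a i`, without repeated adjacent letters, is trivial. -/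
theorem result :
    (∀ G : CappedGrope, ∃ (p : ∀ k, Path (base0 G) (sheet G k false))
      (q : ∀ k, Path (sheet G k true) (base0 G)),
      ∀ (Γ : Type) [Group Γ] (φ : FundamentalGroup G.Thickening G.basePt →* Γ),
        HasPointers G (fun k => φ (loop G k (p k) (q k))) → Null G φ) ∧
    ∀ (G : CappedGrope) (Γ : Type) [Group Γ]
      (φ : FundamentalGroup G.Thickening G.basePt →* Γ),
      (∀ (Q : Type) [Group Q] (π : Γ →* Q), Function.Surjective π → IsAmenable π.ker →
        ∀ S : Set Q, 1 ∈ S → (∀ g ∈ values G φ, π g ∈ S ∧ (π g)⁻¹ ∈ S) →
          (∃ n : ℕ, (S ^ n).encard < 2 ^ n) → Null G φ) ∧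
      (∀ S : Set Γ, (∀ g ∈ values G φ, g ∈ S ∧ g⁻¹ ∈ S) →
        (∃ n : ℕ, (S ^ (n + 1)).encard < 3 * 2 ^ n) → Null G φ) ∧
      (∀ w : Fin 3 → Γ, (∀ g ∈ values G φ, ∃ i j, g = (w i)⁻¹ * w j) → Null G φ) ∧
      ∀ a : Fin 3 → Γ, (∀ i, a i * a i = 1) →
        (∀ g ∈ values G φ, g = 1 ∨ ∃ i, g = a i) →
        (∃ w : List (Fin 3), w ≠ [] ∧ w.IsChain (· ≠ ·) ∧ (w.map a).prod = 1) → Null G φ := by
  refine ⟨exists_null, ?_⟩
  intro G Γ _ φ
  refine ⟨?_, ?_, ?_, ?_⟩
  · rintro Q _ π hπ hN S h1 h ⟨n, hn⟩
    exact null_of_growth_set G Γ Q φ π hπ hN S h1 n hn h
  · rintro S h ⟨n, hn⟩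
    exact null_of_pointers φ fun g hg => hasPointers_growth (fun k => h _ (hg k)) hn
  · intro w h
    exact null_of_pointers φ fun g hg => hasPointers_triple w fun k => h _ (hg k)
  · rintro a ha h ⟨w, hn, hw, h1⟩
    exact null_of_pointers φ fun g hg =>
      hasPointers_invol a ha w hw hn h1 fun k => h _ (hg k)

end Vale.Agent.Results.P215.LocalPointers
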