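import Vale.Agent.P215.TV.Ext

/-!
# P215: capped gropes with tame labels over arbitrary groups
-/

namespace Vale.Agent.Results.P215.TwoValues

open Vale.Agent.P215.H788 Vale.Agent.P215.Am Vale.Agent.P215.TV

/-- **Tame capped gropes are null, over every group.**  The height 1.5 capped gropes `G` are those of
the definition of good groups, and `Null G φ` says that there is a framed immersed disc as there: the
homomorphism `φ` maps all its double point loops to the identity.

(1) For every capped grope `G` there are paths `p k`, `q k` such that `G` is null for each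
homomorphism `φ` to a group `Γ` for which the values of `φ` on the double point loops
`loop G k (p k) (q k)` are tame.
(2) `G` is null for `φ` if for each branch there are `a`, `b` in `Γ` such that the values of the
double points on its three caps are in `{1, a, a⁻¹, b, b⁻¹}`.
(3) `G` is null for `φ` if all the values are in the union of two finite subgroups.
(4) `G` is null for `φ` if all the values are in the union of a finite subgroup and `{b, b⁻¹}`.
(5) `G` is null for `φ` if the isoperimetric constant of the set of the values is at most `1 / 3`: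
there is a nonempty finite subset `F` of `Γ` such that for each value `g` at least two thirds of the
elements `f` of `F` have `f * g` in `F`.
(6) It suffices that this holds, with strict inequalities, for the images of the values in the
quotient `Q` of `Γ` by an amenable normal subgroup.
(7) `G` is null for `φ` if the images of all the values in such a quotient `Q` are in `C ∪ {s}`, for
a finite subgroup `C` of `Q` and an involution `s` not in `C` such that `s * C * s` and `C` have only
the identity in common.
(8) `G` is null for `φ` if `Γ` is the product of an amenable group and `SL(2, ℤ)`, and all the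
values are over the union of the cyclic subgroups of order 4 and 6 which generate `SL(2, ℤ)`. -/
theorem result :
    (∀ G : CappedGrope, ∃ (p : ∀ k, Path (base0 G) (sheet G k false))
      (q : ∀ k, Path (sheet G k true) (base0 G)),
      ∀ (Γ : Type) [Group Γ] (φ : FundamentalGroup G.Thickening G.basePt →* Γ)
        (κ : Fin G.plumbings.length → Bool ⊕ Finset Γ),
        Tame G (fun k => φ (loop G k (p k) (q k))) κ → Null G φ) ∧
    (∀ (G : CappedGrope) (Γ : Type) [Group Γ]
      (φ : FundamentalGroup G.Thickening G.basePt →* Γ),
      ((∀ j i : ℕ, ∃ a b : Γ, valuesAt G φ j i ⊆ {1, a, a⁻¹, b, b⁻¹}) → Null G φ) ∧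
      (∀ A B : Subgroup Γ, Finite A → Finite B → values G φ ⊆ A ∪ B → Null G φ) ∧
      (∀ (A : Subgroup Γ) (b : Γ), Finite A → values G φ ⊆ A ∪ {b, b⁻¹} → Null G φ) ∧
      (∀ F : Finset Γ, F.Nonempty → (∀ g ∈ values G φ, 2 * F.card ≤ 3 * overlap F g) →
        Null G φ) ∧
      ∀ (Q : Type) [Group Q] (π : Γ →* Q), Function.Surjective π → IsAmenable π.ker →
        (∀ F : Finset Q, F.Nonempty →
          (∀ g ∈ values G φ, 2 * F.card < 3 * overlap F (π g)) → Null G φ) ∧
        ∀ (C : Subgroup Q) (s : Q), Finite C → s * s = 1 → s ∉ C →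
          (∀ c ∈ C, s * c * s ∈ C → c = 1) →
          (∀ g ∈ values G φ, π g ∈ C ∨ π g = s) → Null G φ) ∧
    ∀ (G : CappedGrope) (A : Type) [Group A], IsAmenable A →
      ∀ φ : FundamentalGroup G.Thickening G.basePt →* A × Matrix.SpecialLinearGroup (Fin 2) ℤ,
      (∀ g ∈ values G φ, g.2 ∈ Subgroup.zpowers ModularGroup.S ∨
        g.2 ∈ Subgroup.zpowers (ModularGroup.S * ModularGroup.T)) → Null G φ := by
  refine ⟨exists_null, ?_, ?_⟩
  · intro G Γ _ φ
    refine ⟨?_, ?_, ?_, ?_, ?_⟩
    · intro h
      obtain ⟨p, q, hpq⟩ := exists_null G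
      obtain ⟨κ, hκ⟩ := tame_two (G := G) (fun k => φ (loop G k (p k) (q k))) fun j i => by
        obtain ⟨a, b, hab⟩ := h j i
        exact ⟨a, b, fun k s hs => hab ⟨k, p k, q k, ⟨s, hs⟩, rfl⟩⟩
      exact hpq Γ φ κ hκ
    · intro A B hA hB h
      obtain ⟨p, q, hpq⟩ := exists_null G
      obtain ⟨κ, hκ⟩ := tame_finite (G := G) (fun k => φ (loop G k (p k) (q k))) A B hA hB
        fun k => h ⟨k, p k, q k, rfl⟩
      exact hpq Γ φ κ hκ
    · intro A b hA h
      obtain ⟨p, q, hpq⟩ := exists_null G
      obtain ⟨κ, hκ⟩ := tame_mixed (G := G) (fun k => φ (loop G k (p k) (q k))) A b hA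
        fun k => h ⟨k, p k, q k, rfl⟩
      exact hpq Γ φ κ hκ
    · intro F hF h
      obtain ⟨p, q, hpq⟩ := exists_null G
      obtain ⟨κ, hκ⟩ := tame_small (G := G) (fun k => φ (loop G k (p k) (q k))) F hF
        fun k => h _ ⟨k, p k, q k, rfl⟩
      exact hpq Γ φ κ hκ
    · intro Q _ π hπ hN
      exact ⟨fun F hF h => null_of_ext G Γ Q φ π hπ hN F hF fun k p q => h _ ⟨k, p, q, rfl⟩,
        fun C s hC hs hsC hCs h => null_of_involution G Γ Q φ π hπ hN C s hC hs hsC hCs
          fun k p q => h _ ⟨k, p, q, rfl⟩⟩
  · intro G A _ hA φ h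
    exact null_of_modular G A hA φ fun k p q => h _ ⟨k, p, q, rfl⟩

end Vale.Agent.Results.P215.TwoValues
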